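import Vale.Agent.P284.H409.SpecA

/-!
# P284, theorem S (helper894): structure of the fundamental group of a compact Kähler manifold dominated
by `ℂⁿ` with finite order. FROZEN.
-/

open scoped Manifold ContDiff Topology Pointwise ComplexConjugate ComplexOrder
open Filter Set Metric MeasureTheory

noncomputable section

namespace Vale.Agent.P284.H894.S

open Vale.Agent.P272.K Vale.Agent.P284.H248 Vale.Agent.P284.H894 Vale.Agent.P284.H894.G
  Vale.Agent.P284.H894.V Vale.Agent.P284.H894.W Vale.Agent.P284.H409.A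

/-- `A` has a subgroup `G` of finite index which is an extension of `ℤᵐ`, `m ≤ 2 n`, by a finitely
generated group all of whose amenable quotients are finite. -/
def Str (n : ℕ) (A : Type) [Group A] : Prop :=
  ∃ (G : Subgroup A) (m : ℕ) (c : G →* Multiplicative (Fin m → ℤ)), G.FiniteIndex ∧ m ≤ 2 * n ∧
    Function.Surjective c ∧ Group.FG c.ker ∧
    ∀ (Q : Type) [Group Q] (q : c.ker →* Q), Function.Surjective q → Folner Q → Finite Q

/-- **SK** -/
def KerStmt : Prop :=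
  ∀ (n : ℕ) (X : Type) [TopologicalSpace X] [T2Space X] [CompactSpace X] [ConnectedSpace X]
    [ChartedSpace (Cm n) X] [IsManifold 𝓘(ℂ, Cm n) ω X]
    (w : Chart n X → Cm n → Matrix (Fin n) (Fin n) ℂ), IsKahler w →
    ∀ Φ : Cm n → X, FiniteOrder w Φ →
    ∀ (E Γ : Type) [TopologicalSpace E] [SimplyConnectedSpace E] [Group Γ] [MulAction Γ E]
      (p : E → X), IsGalois Γ p →
    ∀ (G K : Subgroup Γ) (N : ℕ) (F : E → Cm N) (c : Γ → Cm N), Alb p w G K F c →
    Group.FG K ∧ ∀ (Q : Type) [Group Q] (q : K →* Q), Function.Surjective q → Folner Q → Finite Q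

/-- **SL** -/
def LatStmt : Prop :=
  ∀ (Γ : Type) [Group Γ] (G K : Subgroup Γ) (N : ℕ) (c : Γ → Cm N),
    (∀ g ∈ G, ∀ h ∈ G, c (g * h) = c g + c h) → (∀ g, g ∈ K ↔ g ∈ G ∧ c g = 0) →
    (∀ R : ℝ, {v | (∃ g ∈ G, c g = v) ∧ ‖v‖ ≤ R}.Finite) →
    Submodule.span ℝ (c '' (G : Set Γ)) = ⊤ →
    ∃ c' : G →* Multiplicative (Fin (2 * N) → ℤ), Function.Surjective c' ∧
      c'.ker = K.subgroupOf G

/-- Theorem S on a simply connected covering -/
def MainS : Prop :=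
  ∀ (n : ℕ) (X : Type) [TopologicalSpace X] [T2Space X] [CompactSpace X] [ConnectedSpace X]
    [ChartedSpace (Cm n) X] [IsManifold 𝓘(ℂ, Cm n) ω X]
    (w : Chart n X → Cm n → Matrix (Fin n) (Fin n) ℂ), IsKahler w →
    ∀ Φ : Cm n → X, FiniteOrder w Φ →
    ∀ (E Γ : Type) [TopologicalSpace E] [SimplyConnectedSpace E] [Group Γ] [MulAction Γ E]
      (p : E → X), IsGalois Γ p → Str n Γ

/-- Theorem S -/
def MainPiS : Prop :=
  ∀ (n : ℕ) (X : Type) [TopologicalSpace X] [T2Space X] [CompactSpace X] [ConnectedSpace X]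
    [ChartedSpace (Cm n) X] [IsManifold 𝓘(ℂ, Cm n) ω X]
    (w : Chart n X → Cm n → Matrix (Fin n) (Fin n) ℂ), IsKahler w →
    ∀ Φ : Cm n → X, FiniteOrder w Φ → ∀ x : X, Str n (FundamentalGroup X x)

/-- **SP** -/
def PiSStmt : Prop := MainS → MainPiS

/-- `N ≤ n` -/
theorem le_of_rank (hR : RankStmt2) (hL : LiftStmt)
    {n : ℕ} {X : Type} [TopologicalSpace X] [T2Space X] [CompactSpace X] [ConnectedSpace X]
    [ChartedSpace (Cm n) X] [IsManifold 𝓘(ℂ, Cm n) ω X]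
    {w : Chart n X → Cm n → Matrix (Fin n) (Fin n) ℂ} (hw : IsKahler w)
    {Φ : Cm n → X} (hΦ : FiniteOrder w Φ)
    {E Γ : Type} [TopologicalSpace E] [SimplyConnectedSpace E] [Group Γ] [MulAction Γ E]
    {p : E → X} (hp : IsGalois Γ p) {G K : Subgroup Γ} {N : ℕ} {F : E → Cm N} {c : Γ → Cm N}
    (hAl : Alb p w G K F c) : N ≤ n := by
  obtain ⟨Φl, hΦl, hpΦ⟩ := hL n X E p hp.cov hp.surj Φ hΦ.holo.continuous
  obtain ⟨P, -, ζ, -, -, hs⟩ := hR n X w hw Φ hΦ E Γ p hp G K N F c hAl Φl hΦl hpΦ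
  have h := LinearMap.finrank_le_finrank_of_surjective (f := ((fderiv ℂ (fun ζ => F (Φl ζ)) ζ :
    Cm n →L[ℂ] Cm N) : Cm n →ₗ[ℂ] Cm N)) hs
  simpa using h

theorem mainS_of (hA : AlbStmt2) (hK : KerStmt) (hLat : LatStmt) (hR : RankStmt2) (hL : LiftStmt) :
    MainS := by
  intro n X _ _ _ _ _ _ w hw Φ hΦ E Γ _ _ _ _ p hp
  obtain ⟨G, K, N, F, c, hAl⟩ := hA n X w hw Φ hΦ E Γ p hp
  have hadd := alb_add hAl
  obtain ⟨hKf, hKq⟩ := hK n X w hw Φ hΦ E Γ p hp G K N F c hAl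
  obtain ⟨c', hc', hker⟩ := hLat Γ G K N c hadd hAl.mem hAl.disc hAl.span
  have hN := le_of_rank hR hL hw hΦ hp hAl
  have hKG : K ≤ G := fun g hg => ((hAl.mem g).1 hg).1
  let e : c'.ker ≃* K := (MulEquiv.subgroupCongr hker).trans (Subgroup.subgroupOfEquivOfLe hKG)
  refine ⟨G, 2 * N, c', hAl.fi, by omega, hc', ?_, ?_⟩
  · exact Group.fg_of_surjective (f := e.symm.toMonoidHom) e.symm.surjective
  · intro Q _ q hq hQ
    exact hKq Q (q.comp e.symm.toMonoidHom) (hq.comp e.symm.surjective) hQ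

end Vale.Agent.P284.H894.S
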