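import Vale.Agent.P284.H409.T.Spec
import Vale.Agent.P284.H977.Pi1

/-! # P284, theorems S and T (helper894): the universal covering. -/

open scoped Manifold ContDiff Topology Pointwise
open Filter Set Metric

noncomputable section

namespace Vale.Agent.P284.H894.S

open Vale.Agent.P272.K Vale.Agent.P284.H248 Vale.Agent.P284.H894 Vale.Agent.P284.H894.G
  Vale.Agent.P284.H894.W Vale.Agent.P284.H409.A Vale.Agent.P284.H977 Vale.Agent.P284.H409.T
  Vale.Agent.P284.H119.Kaz Vale.Agent.P284.H10.T

/-- kernels after an isomorphism -/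
def kerEquiv {A B C : Type*} [Group A] [Group B] [Group C] (f : A ≃* B) (c : A →* C) :
    (c.comp f.symm.toMonoidHom).ker ≃* c.ker where
  toFun x := ⟨f.symm x, by
    have := x.2
    rw [MonoidHom.mem_ker] at this ⊢
    simpa using this⟩
  invFun y := ⟨f y, by
    have := y.2
    rw [MonoidHom.mem_ker] at this ⊢
    simpa using this⟩
  left_inv x := by ext; simp
  right_inv y := by ext; simp
  map_mul' x y := Subtype.ext (map_mul f.symm (x : B) y)

theorem fi_map {A B : Type*} [Group A] [Group B] (e : A ≃* B) {G : Subgroup A}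
    (h : G.FiniteIndex) : (G.map e.toMonoidHom).FiniteIndex := by
  refine ⟨?_⟩
  have h1 : (G.map e.toMonoidHom).index = G.index := by
    rw [Subgroup.index_map_of_injective _ e.injective]
    have : e.toMonoidHom.range = ⊤ := MonoidHom.range_eq_top.2 e.surjective
    rw [this, Subgroup.index_top, mul_one]
  rw [h1]
  exact h.index_ne_zero

theorem Str.of_equiv {n : ℕ} {A B : Type} [Group A] [Group B] (e : A ≃* B) (h : Str n A) :
    Str n B := by
  obtain ⟨G, m, c, hfi, hm, hc, hfg, hQ⟩ := h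
  let f : G ≃* G.map e.toMonoidHom := e.subgroupMap G
  let k := kerEquiv f c
  refine ⟨G.map e.toMonoidHom, m, c.comp f.symm.toMonoidHom, fi_map e hfi, hm,
    hc.comp f.symm.surjective, ?_, ?_⟩
  · exact Group.fg_of_surjective (f := k.symm.toMonoidHom) k.symm.surjective
  · intro Q _ q hq hF
    exact hQ Q (q.comp k.symm.toMonoidHom) (hq.comp k.symm.surjective) hF

/-- **SP** -/
theorem piSStmt : PiSStmt := by
  intro h n X iT iT2 iC iCn iCh iM w hw Φ hΦ x
  obtain ⟨Y, Γ, tY, hsc, gΓ, aΓ, π, e, hG⟩ := exists_uc (n := n) X x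
  exact (h n X w hw Φ hΦ Y Γ π hG).of_equiv e.symm

theorem nsrep_of_equiv {A B : Type*} [Group A] [Group B] (f : A ≃* B) (h : NSRep A) :
    NSRep B := by
  obtain ⟨d, R, hR⟩ := h
  refine ⟨d, R.comp f.symm.toMonoidHom, ?_⟩
  have : (R.comp f.symm.toMonoidHom).range = R.range := by
    rw [MonoidHom.range_comp]
    have : f.symm.toMonoidHom.range = ⊤ := MonoidHom.range_eq_top.2 f.symm.surjective
    rw [this, ← MonoidHom.range_eq_map]
  rw [this]
  exact hR

theorem strT_of_equiv {n : ℕ} {A B : Type} [Group A] [Group B] (e : A ≃* B) (h : StrT n A) :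
    StrT n B := by
  obtain ⟨G, m, c, hfi, hm, hc, hfg, hQ, hT⟩ := h
  let f : G ≃* G.map e.toMonoidHom := e.subgroupMap G
  let k := kerEquiv f c
  refine ⟨G.map e.toMonoidHom, m, c.comp f.symm.toMonoidHom, fi_map e hfi, hm,
    hc.comp f.symm.surjective, ?_, ?_, ?_⟩
  · exact Group.fg_of_surjective (f := k.symm.toMonoidHom) k.symm.surjective
  · intro Q _ q hq hF
    exact hQ Q (q.comp k.symm.toMonoidHom) (hq.comp k.symm.surjective) hF
  · rcases hT with h | h
    · exact Or.inl (h.of_equiv k.symm)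
    · exact Or.inr (nsrep_of_equiv f h)

/-- **TP** -/
theorem piTStmt : PiTStmt := by
  intro h n X iT iT2 iC iCn iCh iM w hw Φ hΦ x
  obtain ⟨Y, Γ, tY, hsc, gΓ, aΓ, π, e, hG⟩ := exists_uc (n := n) X x
  exact strT_of_equiv e.symm (h n X w hw Φ hΦ Y Γ π hG)

end Vale.Agent.P284.H894.S
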