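import Vale.Agent.P284.H894.S.Pi
import Vale.Agent.P284.H446.Ker
import Vale.Agent.P284.H731.Lat
import Vale.Agent.P284.H409.RkF

/-! # P284, theorem S (helper894): assembly -/

noncomputable section

namespace Vale.Agent.P284.H894.S

/-- Theorem S: structure of the fundamental group. -/
theorem mainS : MainS :=
  mainS_of W.albStmt2 H446.Ker.kerStmt H731.Lat.latStmt H119.R.rankStmt2 H977.liftStmt

theorem mainPiS : MainPiS := piSStmt mainS

end Vale.Agent.P284.H894.S
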